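import Mathlib
import Vale.Agent.Lib.P110.H16.Parity

/-!
# P110 (helper26): the maximum modulus of a real Littlewood polynomial exceeds `√N`

For `P(z) = ∑_{k<N} ε_k z^k` with `ε_k = ±1` the polynomial `P(z) · z^(N-1) P(1/z)` has middle
coefficient `N` and at least `N - 1` further nonzero integer coefficients (helper16's parity
lemma), so by Parseval on the `2N`-th roots of unity some point `z` of the unit circle has
`|P(z)|^4 ≥ N^2 + N - 1`.
-/

namespace Vale.Agent.Lib.P110.H26

open Finset Polynomial Vale.Agent.Lib.P110.H16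

/-- The middle coefficient of `litP * litR` is `∑ ε_k ^ 2 = N`. -/
lemma coeff_mid (N : ℕ) (ε : ℕ → ℤ) (hε : ∀ k < N, ε k = 1 ∨ ε k = -1) :
    (litP N ε * litR N ε).coeff (N - 1) = (N : ℤ) := by
  unfold litP litR
  rw [Finset.sum_mul_sum, Polynomial.finsetSum_coeff]
  have h : ∀ k ∈ range N,
      (∑ l ∈ range N, C (ε k) * X ^ k * (C (ε l) * X ^ (N - 1 - l))).coeff (N - 1) = 1 := by
    intro k hk
    have hk' := mem_range.mp hk
    rw [Polynomial.finsetSum_coeff, Finset.sum_eq_single k]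
    · have e2 : N - 1 = k + (N - 1 - k) := by omega
      have e3 : (X : ℤ[X]) ^ (N - 1) = X ^ k * X ^ (N - 1 - k) := by
        rw [← pow_add, ← e2]
      have e1 : C (ε k) * X ^ k * (C (ε k) * X ^ (N - 1 - k)) = C (ε k * ε k) * X ^ (N - 1) := by
        rw [C_mul, e3]
        ring
      rw [e1, coeff_C_mul_X_pow, if_pos rfl]
      rcases hε k hk' with h | h <;> rw [h] <;> norm_num
    · intro l hl hlk
      have hl' := mem_range.mp hl
      have e1 : C (ε k) * X ^ k * (C (ε l) * X ^ (N - 1 - l)) =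
          C (ε k * ε l) * X ^ (k + (N - 1 - l)) := by
        rw [C_mul, pow_add]
        ring
      rw [e1, coeff_C_mul_X_pow, if_neg]
      omega
    · intro hk2
      exact absurd hk hk2
  rw [Finset.sum_congr rfl h]
  simp

/-- The squares of the coefficients of `litP * litR` sum to at least `N ^ 2 + N - 1`. -/
lemma sum_sq_coeff_prod (N : ℕ) (hN : 1 ≤ N) (ε : ℕ → ℤ) (hε : ∀ k < N, ε k = 1 ∨ ε k = -1) :
    (N : ℤ) ^ 2 + ((N : ℤ) - 1) ≤
      ∑ s ∈ range (2 * N), ((litP N ε * litR N ε).coeff s) ^ 2 := by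
  have h1 := sum_sq_coeff N hN ε hε
  have hmidG : (litG N ε).coeff (N - 1) = 0 := by
    unfold litG
    rw [Polynomial.coeff_sub, coeff_mid N ε hε, Polynomial.coeff_C_mul, Polynomial.coeff_X_pow,
      if_pos rfl, mul_one, sub_self]
  have h2 : ∀ s ∈ range (2 * N), ((litP N ε * litR N ε).coeff s) ^ 2 =
      ((litG N ε).coeff s) ^ 2 + (if s = N - 1 then (N : ℤ) ^ 2 else 0) := by
    intro s _
    by_cases hs : s = N - 1
    · rw [hs, hmidG, coeff_mid N ε hε, if_pos rfl]
      ring
    · rw [coeff_litG N ε s hs, if_neg hs, add_zero]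
  rw [Finset.sum_congr rfl h2, Finset.sum_add_distrib, Finset.sum_ite_eq',
    if_pos (mem_range.mpr (by omega))]
  linarith

/-- Some point of the unit circle has `|P(z)|^4 ≥ N^2 + N - 1`. -/
theorem exists_large (N : ℕ) (hN : 2 ≤ N) (ε : ℕ → ℤ) (hε : ∀ k < N, ε k = 1 ∨ ε k = -1) :
    ∃ z : ℂ, ‖z‖ = 1 ∧
      (N : ℝ) ^ 2 + ((N : ℝ) - 1) ≤ ‖∑ k ∈ Finset.range N, (ε k : ℂ) * z ^ k‖ ^ 4 := by
  have hN1 : 1 ≤ N := by omega
  set H : ℂ[X] := (litP N ε * litR N ε).map (Int.castRingHom ℂ) with hH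
  have hdeg : H.natDegree < 2 * N := by
    have h1 : (litP N ε * litR N ε).natDegree ≤ (N - 1) + (N - 1) :=
      natDegree_mul_le.trans (add_le_add (natDegree_litP N ε) (natDegree_litR N ε))
    exact lt_of_le_of_lt Polynomial.natDegree_map_le (by omega)
  obtain ⟨z, hz, hle⟩ := exists_root_large H (2 * N) hdeg
  refine ⟨z, hz, ?_⟩
  have hcoef : (N : ℝ) ^ 2 + ((N : ℝ) - 1) ≤
      ∑ s ∈ range (2 * N), Complex.normSq (H.coeff s) := by
    have h1 := sum_sq_coeff_prod N hN1 ε hε
    have h2 : ∀ s ∈ range (2 * N),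
        Complex.normSq (H.coeff s) = ((((litP N ε * litR N ε).coeff s) ^ 2 : ℤ) : ℝ) := by
      intro s _
      rw [hH, Polynomial.coeff_map]
      have h3 : (Int.castRingHom ℂ) ((litP N ε * litR N ε).coeff s) =
          ((((litP N ε * litR N ε).coeff s : ℤ) : ℝ) : ℂ) := by
        simp
      rw [h3, Complex.normSq_ofReal]
      push_cast
      ring
    rw [Finset.sum_congr rfl h2, ← Int.cast_sum]
    exact_mod_cast h1
  have hev : Complex.normSq (H.eval z) =
      ‖∑ k ∈ Finset.range N, (ε k : ℂ) * z ^ k‖ ^ 4 := by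
    have hG := eval_litG N hN1 ε z hz
    have hsplit : litP N ε * litR N ε = litG N ε + C (N : ℤ) * X ^ (N - 1) := by
      unfold litG
      ring
    have hval : H.eval z = z ^ (N - 1) *
        ((Complex.normSq (∑ k ∈ range N, (ε k : ℂ) * z ^ k) : ℝ) : ℂ) := by
      rw [hH, hsplit, Polynomial.map_add, Polynomial.eval_add, hG]
      simp only [Polynomial.map_mul, Polynomial.map_pow, Polynomial.map_X,
        Polynomial.eval_mul, Polynomial.eval_pow, Polynomial.eval_X,
        eq_intCast, Int.cast_natCast, Polynomial.map_natCast, Polynomial.eval_natCast]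
      ring
    rw [hval, Complex.normSq_mul, Complex.normSq_eq_norm_sq (z ^ (N - 1)), norm_pow, hz,
      one_pow, one_pow, one_mul, Complex.normSq_ofReal,
      Complex.normSq_eq_norm_sq (∑ k ∈ Finset.range N, (ε k : ℂ) * z ^ k)]
    ring
  exact hcoef.trans (hle.trans_eq hev)

end Vale.Agent.Lib.P110.H26
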